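import Vale.Agent.P168.Tree.Sync
import Vale.Agent.P168.Tree.Consistent
import Vale.Agent.P168.Tree.Dominate
import Vale.Agent.P168.Tree.Attach

/-! Module 7: every GG array is a tree array. -/

open MeasureTheory ProbabilityTheory Filter
open scoped BigOperators NNReal ENNReal

noncomputable section

namespace Vale.Agent.P168.Tree

/-- A GG array is a tree array for the diagonal value of its master overlap. -/
theorem isTreeArray {ν : Measure Arr} (hν : IsGGArray ν) : IsTreeArray ν (rhoVal hν) where
  toIsGGArray := hν
  rho_pos := rho_pos hν
  rbar_symm := rbar_symm hν
  rbar_diag := rbar_diag hν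
  rbar_le := rbar_le hν
  ultra := rbar_ultra hν
  sync := sync hν
  near_top := near_top hν
  gg_scalar := gg_scalar hν
  rset_lim := rset_tendsto hν
  site_factor := site_factor hν
  location := location hν
  consistent := consistent hν
  dominate := dominate hν
  attach := attach hν

/-- Module 7. -/
theorem tree_stmt : TreeStmt := fun _ hν => ⟨rhoVal hν, isTreeArray hν⟩

end Vale.Agent.P168.Tree
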