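import Vale.Agent.P168.StateDefs

/-! Limit arrays: spins of replicas at sites and a countable family of replica kernels. -/

open MeasureTheory ProbabilityTheory Filter
open scoped BigOperators NNReal ENNReal

noncomputable section

namespace Vale.Agent.P168

/-- Spins `(replica, site)` and kernels `(index, replica, replica)`. -/
abbrev Arr := (ℕ → ℕ → Bool) × (ℕ → ℕ → ℕ → ℝ)

/-- Data of the first `n` replicas. -/
abbrev RepData (n : ℕ) := (Fin n → ℕ → Bool) × (ℕ → Fin n → Fin n → ℝ)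

/-- Projection to the first `n` replicas. -/
def repData (n : ℕ) (ω : Arr) : RepData n := (fun l => ω.1 l, fun g a b => ω.2 g a b)

/-- Renaming replicas. -/
def permRep (π : Equiv.Perm ℕ) (ω : Arr) : Arr :=
  (fun l => ω.1 (π l), fun g a b => ω.2 g (π a) (π b))

/-- Renaming sites. -/
def permSite (π : Equiv.Perm ℕ) (ω : Arr) : Arr := (fun l i => ω.1 l (π i), ω.2)

/-- Spin product of the replicas in `L` at site `i`. -/
def spinProd (L : List ℕ) (i : ℕ) (ω : Arr) : ℝ := (L.map fun l => spin (ω.1 l i)).prod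

/-- The multi-overlap of the replicas in `L`. -/
def rset (L : List ℕ) (ω : Arr) : ℝ :=
  limsup (fun k : ℕ => (∑ i ∈ Finset.range (4 ^ k), spinProd L i ω) / (4 : ℝ) ^ k) atTop

/-- The vector of kernels of two replicas. -/
def kvec (a b : ℕ) (ω : Arr) : ℕ → ℝ := fun g => ω.2 g a b

/-- Master weights. -/
def kWeight (g : ℕ) : ℝ := (1 / 2) ^ (g + 1)

/-- The master overlap. -/
def rbar (a b : ℕ) (ω : Arr) : ℝ := ∑' g, kWeight g * ω.2 g a b

/-- The matrix of master overlaps of the replicas `u`. -/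
def tmat {n : ℕ} (u : Fin n → ℕ) (ω : Arr) : Fin n → Fin n → ℝ := fun a b => rbar (u a) (u b) ω

/-- The law of `rbar` of two replicas. -/
def overlapLaw (ν : Measure Arr) : Measure ℝ := ν.map (rbar 0 1)

/-- Moments of an array. -/
def arrayMoment (ν : Measure Arr) {M n : ℕ} (A : Fin M → Finset (Fin n)) : ℝ :=
  ∫ ω, ∏ i : Fin M, ∏ l ∈ A i, spin (ω.1 l i) ∂ν

/-- An exchangeable array satisfying the Ghirlanda–Guerra identities for its kernel vector. -/
structure IsGGArray (ν : Measure Arr) : Prop where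
  prob : IsProbabilityMeasure ν
  exch_rep : ∀ π : Equiv.Perm ℕ, ν.map (permRep π) = ν
  exch_site : ∀ π : Equiv.Perm ℕ, ν.map (permSite π) = ν
  symm : ∀ g a b, ∀ᵐ ω ∂ν, ω.2 g a b = ω.2 g b a
  bound : ∀ g a b, ∀ᵐ ω ∂ν, |ω.2 g a b| ≤ 1
  diag : ∀ g, ∃ d : ℝ, ∀ a, ∀ᵐ ω ∂ν, ω.2 g a a = d
  psd : ∀ g n, ∀ c : Fin n → ℝ, ∀ᵐ ω ∂ν, 0 ≤ ∑ a, ∑ b, c a * c b * ω.2 g a b
  overlap_zero : ∀ a b, ∀ᵐ ω ∂ν, ω.2 0 a b = rset [a, b] ω
  magnetisation : ∃ o : ℝ, ∀ a, ∀ᵐ ω ∂ν, rset [a] ω = o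
  gg : ∀ n : ℕ, 1 ≤ n → ∀ (F : RepData n → ℝ) (h : (ℕ → ℝ) → ℝ), Measurable F → Measurable h →
    (∀ z, |F z| ≤ 1) → (∀ z, |h z| ≤ 1) →
    (n : ℝ) * ∫ ω, F (repData n ω) * h (kvec 0 n ω) ∂ν =
      (∫ ω, F (repData n ω) ∂ν) * (∫ ω, h (kvec 0 1 ω) ∂ν) +
        ∑ l ∈ Finset.Ico 1 n, ∫ ω, F (repData n ω) * h (kvec 0 l ω) ∂ν

/-- A gadget: labels, hyperedges (set of labels and the two pin flags), small tilts. -/
abbrev Gadget := (d : ℕ) × (List (Finset (Fin d) × Bool × Bool)) × (Fin d → ℚ)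

/-- The tilt of label `a`, set to zero when the gadget is not small. -/
def Gadget.tilt (Γ : Gadget) (a : Fin Γ.1) : ℝ :=
  if ∑ i, |Γ.2.2 i| ≤ 1 / 8 then (Γ.2.2 a : ℝ) else 0

/-- The index of the kernel of `(φ + s φ') / 2`, `s = ±1`. -/
def kidx (Γ : Gadget) (s : Bool) : ℕ := Encodable.encode (Γ, s) + 1

/-- The insertion operator: labels go to old replicas, or to a fresh one with weight `-n`. -/
def ins : (J : ℕ) → ℕ → ((Fin J → ℕ) → ℝ) → ℝ
  | 0, _, G => G Fin.elim0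
  | J + 1, n, G => (∑ q ∈ Finset.range n, ins J n fun g => G (Fin.cons q g)) -
      (n : ℝ) * ins J (n + 1) fun g => G (Fin.cons n g)

/-- The replicas read by hyperedge `e` in orientation `(u, v)`. -/
def edgeReps {d J : ℕ} (e : Finset (Fin d) × Bool × Bool) (a : Fin J → Fin d) (l l' : ℕ)
    (u v : Bool) (g : Fin J → ℕ) : List ℕ :=
  (if (if u then e.2.2 else e.2.1) then [l] else []) ++
    (if (if v then e.2.2 else e.2.1) then [l'] else []) ++
    ((List.finRange J).filter fun i => a i ∈ e.1).map g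

/-- The value of a gadget for labels `a` placed at replicas `g`. -/
def gadgetValue (Γ : Gadget) (s : Bool) {J : ℕ} (a : Fin J → Fin Γ.1) (l l' : ℕ)
    (g : Fin J → ℕ) (ω : Arr) : ℝ :=
  (1 / 4) * ∑ u : Bool, ∑ v : Bool,
    (if u then spin s else 1) * (if v then spin s else 1) *
      (Γ.2.1.map fun e => rset (edgeReps e a l l' u v g) ω).prod

/-- A GG array satisfying the gadget identities. -/
structure IsGadgetArray (ν : Measure Arr) : Prop extends IsGGArray ν where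
  unused : ∀ g, g ≠ 0 → (∀ (Γ : Gadget) (s : Bool), kidx Γ s ≠ g) →
    ∀ a b, ∀ᵐ ω ∂ν, ω.2 g a b = 0
  gadget : ∀ (Γ : Gadget) (s : Bool) (n l l' : ℕ), l < n → l' < n → ∀ F : RepData n → ℝ,
    Measurable F → (∀ z, |F z| ≤ 1) →
    HasSum (fun J : ℕ => ((J.factorial : ℝ))⁻¹ * ∑ a : Fin J → Fin Γ.1, (∏ i, Γ.tilt (a i)) *
        ∫ ω, F (repData n ω) * ins J n (fun g => gadgetValue Γ s a l l' g ω) ∂ν)
      (∫ ω, F (repData n ω) * ω.2 (kidx Γ s) l l' ∂ν)

end Vale.Agent.P168
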