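import Mathlib

/-! Definitions for the diluted spin glass pressure and the Mézard–Parisi functional. -/

open MeasureTheory ProbabilityTheory
open scoped BigOperators NNReal ENNReal

noncomputable section

namespace Vale.Agent.P168

/-- A factor: `(a, b, f)` with `exp θ (σ) = a * (1 + b * ∏ j, f j (σ j))`. -/
abbrev Factor (K : ℕ) := ℝ × ℝ × (Fin K → Bool → ℝ)

/-- The spin value `±1` of a Boolean. -/
def spin (s : Bool) : ℝ := if s then 1 else -1

/-- `exp θ(σ)`. -/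
def factorWeight {K : ℕ} (θ : Factor K) (σ : Fin K → Bool) : ℝ :=
  θ.1 * (1 + θ.2.1 * ∏ j, θ.2.2 j (σ j))

/-- `θ(σ)`. -/
def theta {K : ℕ} (θ : Factor K) (σ : Fin K → Bool) : ℝ :=
  Real.log (factorWeight θ σ)

/-- The class of models: law `P` of `(a, b, f)` and law `Q` of the field `h`. -/
structure IsModel {K : ℕ} (P : Measure (Factor K)) (Q : Measure ℝ) : Prop where
  prob_factor : IsProbabilityMeasure P
  prob_field : IsProbabilityMeasure Q
  bounds : ∀ᵐ θ ∂P, 0 < θ.1 ∧ |θ.2.1| < 1 ∧ ∀ j s, |θ.2.2 j s| ≤ 1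
  indep : ∃ (νb : Measure ℝ) (νf : Measure (Bool → ℝ)), IsProbabilityMeasure νb ∧
    IsProbabilityMeasure νf ∧ P.map Prod.snd = νb.prod (Measure.pi fun _ : Fin K => νf)
  positivity : ∀ n : ℕ, 1 ≤ n → 0 ≤ ∫ θ, (-θ.2.1) ^ n ∂P
  integrable_theta : ∀ σ, Integrable (fun θ => theta θ σ) P
  integrable_field : Integrable (fun h : ℝ => h) Q

/-- Uniform law on a finite type. -/
def unifFin (α : Type*) [Fintype α] [MeasurableSpace α] : Measure α :=
  ((Fintype.card α : ℝ≥0∞))⁻¹ • Measure.count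

/-- Uniform law on `[0,1]`. -/
def unif : Measure ℝ := volume.restrict (Set.Icc 0 1)

/-- The Hamiltonian with clauses `c` (factor and indices) and fields `h`. -/
def hamiltonian {K N n : ℕ} (c : Fin n → Factor K × (Fin K → Fin N)) (h : Fin N → ℝ)
    (σ : Fin N → Bool) : ℝ :=
  (∑ k, theta (c k).1 fun j => σ ((c k).2 j)) + ∑ i, h i * spin (σ i)

/-- `log` of the partition function. -/
def logPartition {K N n : ℕ} (c : Fin n → Factor K × (Fin K → Fin N)) (h : Fin N → ℝ) : ℝ :=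
  Real.log (∑ σ : Fin N → Bool, Real.exp (hamiltonian c h σ))

/-- The pressure `F_N`. -/
def pressure {K : ℕ} (lam : ℝ) (P : Measure (Factor K)) (Q : Measure ℝ) (N : ℕ) : ℝ :=
  (1 / (N : ℝ)) * ∫ n, ∫ c : Fin n → Factor K × (Fin K → Fin N), ∫ h : Fin N → ℝ,
      logPartition c h ∂(Measure.pi fun _ => Q)
    ∂(Measure.pi fun _ => P.prod (unifFin (Fin K → Fin N)))
    ∂poissonMeasure (lam * N).toNNReal

/-- `Y₀`: the nested means `Y_{p-1} = (E_p Y_p ^ m_p) ^ (1 / m_p)`, integrating at level `p`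
the level-`p` variables of all messages. -/
def nestedMean {ι : Type*} [Fintype ι] :
    {r : ℕ} → (Fin r → ℝ) → ((ι → Fin r → ℝ) → ℝ) → ℝ
  | 0, _, Y => Y fun _ => Fin.elim0
  | _ + 1, m, Y =>
    (∫ w : ι → ℝ, (nestedMean (Fin.tail m) fun ω => Y fun i => Fin.cons (w i) (ω i)) ^ m 0
      ∂(Measure.pi fun _ => unif)) ^ (1 / m 0)

/-- `U`, from clauses `c` (factor and position `ℓ`), field `h` and messages `y`. -/
def siteTerm {K n : ℕ} (c : Fin n → Factor K × Fin K) (h : ℝ) (y : Fin n × Fin K → ℝ) : ℝ :=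
  ∑ ε : Bool, Real.exp (h * spin ε) * ∏ k, ∑ σ : Fin K → Bool,
    if σ (c k).2 = ε then
      factorWeight (c k).1 σ * ∏ j ∈ Finset.univ.erase (c k).2, (1 + y (k, j) * spin (σ j)) / 2
    else 0

/-- `V`, from factors `c` and messages `y`. -/
def edgeTerm {K n : ℕ} (c : Fin n → Factor K) (y : Fin n × Fin K → ℝ) : ℝ :=
  ∏ k, ∑ σ : Fin K → Bool, factorWeight (c k) σ * ∏ j, (1 + y (k, j) * spin (σ j)) / 2

/-- `𝒯 U`. -/
def trialU {K r : ℕ} (lam : ℝ) (P : Measure (Factor K)) (Q : Measure ℝ) (m : Fin r → ℝ)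
    (x : (Fin (r + 1) → ℝ) → ℝ) : ℝ :=
  ∫ n, ∫ c : Fin n → Factor K × Fin K, ∫ h, ∫ ω₀ : Fin n × Fin K → ℝ,
      Real.log (nestedMean m fun ω => siteTerm c h fun i => x (Fin.cons (ω₀ i) (ω i)))
    ∂(Measure.pi fun _ => unif) ∂Q ∂(Measure.pi fun _ => P.prod (unifFin (Fin K)))
    ∂poissonMeasure ((K : ℝ) * lam).toNNReal

/-- `𝒯 V`. -/
def trialV {K r : ℕ} (lam : ℝ) (P : Measure (Factor K)) (m : Fin r → ℝ)
    (x : (Fin (r + 1) → ℝ) → ℝ) : ℝ :=
  ∫ n, ∫ c : Fin n → Factor K, ∫ ω₀ : Fin n × Fin K → ℝ,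
      Real.log (nestedMean m fun ω => edgeTerm c fun i => x (Fin.cons (ω₀ i) (ω i)))
    ∂(Measure.pi fun _ => unif) ∂(Measure.pi fun _ => P)
    ∂poissonMeasure (((K : ℝ) - 1) * lam).toNNReal

/-- Admissible trial parameters at depth `r`. -/
structure IsTrial {r : ℕ} (m : Fin r → ℝ) (x : (Fin (r + 1) → ℝ) → ℝ) : Prop where
  pos : ∀ i, 0 < m i
  lt_one : ∀ i, m i < 1
  strictMono : StrictMono m
  measurable : Measurable x
  bounded : ∀ ω, |x ω| ≤ 1

/-- All values of the trial functional, over all depths `r ≥ 0`. -/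
def trialValues {K : ℕ} (lam : ℝ) (P : Measure (Factor K)) (Q : Measure ℝ) : Set ℝ :=
  {v | ∃ (r : ℕ) (m : Fin r → ℝ) (x : (Fin (r + 1) → ℝ) → ℝ),
    IsTrial m x ∧ v = trialU lam P Q m x - trialV lam P m x}

/-- The Mézard–Parisi formula for the model `(lam, P, Q)`. -/
def MPFormula {K : ℕ} (lam : ℝ) (P : Measure (Factor K)) (Q : Measure ℝ) : Prop :=
  ∃ L : ℝ, Filter.Tendsto (fun N => pressure lam P Q (N + 1)) Filter.atTop (nhds L) ∧
    IsGLB (trialValues lam P Q) L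

end Vale.Agent.P168
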