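import Vale.Agent.P168.ArrayDefs

/-! The interfaces between the parts of the proof, as propositions. -/

open MeasureTheory ProbabilityTheory Filter
open scoped BigOperators NNReal ENNReal

noncomputable section

namespace Vale.Agent.P168

/-- A model with `a = 1`, `|b| ≤ c < 1` and `|h| ≤ H`. -/
structure IsBoundedModel {K : ℕ} (P : Measure (Factor K)) (Q : Measure ℝ) (c H : ℝ) : Prop
    extends IsModel P Q where
  c_lt : c < 1
  scale_one : ∀ᵐ θ ∂P, θ.1 = 1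
  b_le : ∀ᵐ θ ∂P, |θ.2.1| ≤ c
  h_le : ∀ᵐ h ∂Q, |h| ≤ H

/-- Standing hypotheses of the bounded problem. -/
structure Bounded (K : ℕ) (lam : ℝ) (P : Measure (Factor K)) (Q : Measure ℝ) (c H : ℝ) :
    Prop where
  even : Even K
  two_le : 2 ≤ K
  lam_pos : 0 < lam
  model : IsBoundedModel P Q c H

/-- The formula for every model of the class. -/
def MainStmt : Prop :=
  ∀ (K : ℕ) (lam : ℝ) (P : Measure (Factor K)) (Q : Measure ℝ),
    Even K → 2 ≤ K → 0 < lam → IsModel P Q → MPFormula lam P Q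

/-- Module 1: removal of the boundedness assumptions. -/
def TruncationStmt : Prop :=
  (∀ (K : ℕ) (lam : ℝ) (P : Measure (Factor K)) (Q : Measure ℝ) (c H : ℝ),
    Bounded K lam P Q c H → MPFormula lam P Q) → MainStmt

/-- Module 2a: logarithms of cascade averages. -/
def CascadeLogStmt : Prop :=
  ∀ (β : Type) [MeasurableSpace β] (ν : Measure β) [IsProbabilityMeasure ν] (r : ℕ)
    (m : Fin r → ℝ), (∀ i, 0 < m i) → (∀ i, m i < 1) → StrictMono m →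
    ∀ (Y : (Fin r → β) → ℝ) (C : ℝ), 0 < C → Measurable Y → (∀ ω, C⁻¹ ≤ Y ω ∧ Y ω ≤ C) →
      Tendsto (fun n => ∫ t, Real.log (cascMean m n Y t) ∂cascLaw ν r n) (cascFilter r)
        (nhds (Real.log (genNested ν m Y)))

/-- Module 2b: replica moments of cascade averages. -/
def CascadeMomentStmt : Prop :=
  ∀ (β : Type) [MeasurableSpace β] (ν : Measure β) [IsProbabilityMeasure ν] (r k : ℕ)
    (m : Fin r → ℝ), (∀ i, 0 < m i) → (∀ i, m i < 1) → StrictMono m →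
    ∀ g : Fin k → (Fin r → β) → ℝ, (∀ l, Measurable (g l)) → (∀ l ω, |g l ω| ≤ 1) →
      Tendsto (fun n => ∫ t, ∏ l, cascMean m n (g l) t ∂cascLaw ν r n) (cascFilter r)
        (nhds (treeMoment ν m g))

/-- Module 3: the upper bound. -/
def UpperStmt : Prop :=
  ∀ (K : ℕ) (lam : ℝ) (P : Measure (Factor K)) (Q : Measure ℝ) (c H : ℝ),
    Bounded K lam P Q c H → ∀ v ∈ trialValues lam P Q, ∀ N, pressure lam P Q (N + 1) ≤ v

/-- The lower bound. -/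
def LowerStmt : Prop :=
  ∀ (K : ℕ) (lam : ℝ) (P : Measure (Factor K)) (Q : Measure ℝ) (c H : ℝ),
    Bounded K lam P Q c H → ∀ ε > 0,
      ∀ᶠ N in atTop, ∃ v ∈ trialValues lam P Q, v ≤ pressure lam P Q (N + 1) + ε

/-- Two moment families are `δ`-close up to `M₀` sites and `n₀` replicas. -/
def MomentClose (M₀ n₀ : ℕ) (δ : ℝ)
    (f g : ∀ {M n : ℕ}, (Fin M → Finset (Fin n)) → ℝ) : Prop :=
  ∀ M n : ℕ, M ≤ M₀ → n ≤ n₀ → ∀ A : Fin M → Finset (Fin n), |f A - g A| ≤ δ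

/-- Module 4a: the cavity functional is continuous in the moments. -/
def CavContinuityStmt : Prop :=
  ∀ (K : ℕ) (lam : ℝ) (P : Measure (Factor K)) (Q : Measure ℝ) (c H : ℝ),
    Bounded K lam P Q c H → ∀ ε > 0, ∃ (M₀ n₀ : ℕ) (δ : ℝ), 0 < δ ∧
      ∀ S S' : RandomState, S.IsGood → S'.IsGood →
        MomentClose M₀ n₀ δ S.moment S'.moment → |S.cav lam P Q - S'.cav lam P Q| ≤ ε

/-- Module 4b: trial states as random states. -/
def MPStateStmt : Prop :=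
  ∀ (K : ℕ) (lam : ℝ) (P : Measure (Factor K)) (Q : Measure ℝ) (c H : ℝ),
    Bounded K lam P Q c H → ∀ (r : ℕ) (m : Fin r → ℝ) (x : (Fin (r + 1) → ℝ) → ℝ),
      IsTrial m x → ∀ (M₀ n₀ : ℕ), ∀ ε > 0, ∃ S : RandomState, S.IsGood ∧
        |S.cav lam P Q - (trialU lam P Q m x - trialV lam P m x)| ≤ ε ∧
        MomentClose M₀ n₀ ε S.moment (mpMoment m x)

/-- Module 5: perturbed system, cavity computation and limit array. -/
def LimitStmt : Prop :=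
  ∀ (K : ℕ) (lam : ℝ) (P : Measure (Factor K)) (Q : Measure ℝ) (c H : ℝ),
    Bounded K lam P Q c H → ∃ ν : Measure Arr, IsGadgetArray ν ∧
      ∀ (M₀ n₀ : ℕ), ∀ δ > 0, ∃ S : RandomState, S.IsGood ∧
        MomentClose M₀ n₀ δ S.moment (arrayMoment ν) ∧
        ∀ᶠ N in atTop, S.cav lam P Q ≤ pressure lam P Q (N + 1) + δ

/-- Module 6: the approximation of a limit array by trial states. -/
def MPApproxStmt : Prop :=
  ∀ ν : Measure Arr, IsGadgetArray ν → ∀ (M₀ n₀ : ℕ), ∀ δ > 0,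
    ∃ (r : ℕ) (m : Fin r → ℝ) (x : (Fin (r + 1) → ℝ) → ℝ),
      IsTrial m x ∧ MomentClose M₀ n₀ δ (mpMoment m x) (arrayMoment ν)

/-- A square matrix of overlaps. -/
abbrev Mat (n : ℕ) := Fin n → Fin n → ℝ

/-- The replicas `0, …, n-1`. -/
def idRep (n : ℕ) : Fin n → ℕ := fun i => i

/-- The tree properties of a GG array (module 7). -/
structure IsTreeArray (ν : Measure Arr) (ρ : ℝ) : Prop extends IsGGArray ν where
  rho_pos : 0 < ρ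
  rbar_symm : ∀ a b, ∀ᵐ ω ∂ν, rbar a b ω = rbar b a ω
  rbar_diag : ∀ a, ∀ᵐ ω ∂ν, rbar a a ω = ρ
  rbar_le : ∀ a b, ∀ᵐ ω ∂ν, |rbar a b ω| ≤ ρ
  ultra : ∀ a b c, ∀ᵐ ω ∂ν, min (rbar a b ω) (rbar b c ω) ≤ rbar a c ω
  sync : ∀ g, ∃ φ : ℝ → ℝ, LipschitzWith ((2 : ℝ≥0) ^ (g + 1)) φ ∧ Monotone φ ∧
    ∀ a b, ∀ᵐ ω ∂ν, ω.2 g a b = φ (rbar a b ω)
  near_top : ∀ a b, ∀ᵐ ω ∂ν, (1 - rset [a, b] ω) ≤ 2 * (ρ - rbar a b ω)
  gg_scalar : ∀ n p : ℕ, p < n → ∀ (F : RepData n → ℝ) (h : ℝ → ℝ), Measurable F → Measurable h →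
    (∀ z, |F z| ≤ 1) → (∀ z, |h z| ≤ 1) →
    (n : ℝ) * ∫ ω, F (repData n ω) * h (rbar p n ω) ∂ν =
      (∫ ω, F (repData n ω) ∂ν) * (∫ ω, h (rbar 0 1 ω) ∂ν) +
        ∑ l ∈ (Finset.range n).erase p, ∫ ω, F (repData n ω) * h (rbar p l ω) ∂ν
  rset_lim : ∀ L : List ℕ, ∀ᵐ ω ∂ν,
    Tendsto (fun k : ℕ => (∑ i ∈ Finset.range (4 ^ k), spinProd L i ω) / (4 : ℝ) ^ k) atTop
      (nhds (rset L ω))
  site_factor : ∀ (n M : ℕ) (L : Fin M → List ℕ) (G : Mat n → ℝ), Measurable G →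
    (∀ T, |G T| ≤ 1) →
    ∫ ω, G (tmat (idRep n) ω) * ∏ i, spinProd (L i) i ω ∂ν =
      ∫ ω, G (tmat (idRep n) ω) * ∏ i, rset (L i) ω ∂ν
  location : ∀ (s : ℕ) (G : Mat (s + 1) → ℝ), Measurable G → (∀ T, |G T| ≤ 1) →
    ∃ Lam : Mat s → ℝ, Measurable Lam ∧ (∃ C, ∀ T, |Lam T| ≤ C) ∧
      ∀ (n : ℕ) (u : Fin s → ℕ), 1 ≤ n → (∀ i, u i < n) → ∀ F : RepData n → ℝ,
        Measurable F → (∀ z, |F z| ≤ 1) →
        (n : ℝ) * ∫ ω, F (repData n ω) * G (tmat (Fin.snoc u n) ω) ∂ν =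
          (∑ q ∈ Finset.range n, ∫ ω, F (repData n ω) * G (tmat (Fin.snoc u q) ω) ∂ν) -
            ∫ ω, F (repData n ω) * Lam (tmat u ω) ∂ν
  consistent : ∀ (n k : ℕ) (F : RepData n → ℝ) (f : Mat n → ℝ), Measurable F → Measurable f →
    (∀ z, |F z| ≤ 1) → (∀ T, |f T| ≤ 1) →
    (∀ g : Mat n → ℝ, Measurable g → (∀ T, |g T| ≤ 1) →
      ∫ ω, F (repData n ω) * g (tmat (idRep n) ω) ∂ν =
        ∫ ω, f (tmat (idRep n) ω) * g (tmat (idRep n) ω) ∂ν) →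
    ∀ G : Mat (n + k) → ℝ, Measurable G → (∀ T, |G T| ≤ 1) →
      ∫ ω, F (repData n ω) * G (tmat (idRep (n + k)) ω) ∂ν =
        ∫ ω, f (tmat (idRep n) ω) * G (tmat (idRep (n + k)) ω) ∂ν
  dominate : ∀ (n d : ℕ), 2 ≤ n → ∀ κ : Kernel ℝ (Mat (2 + d)), IsMarkovKernel κ →
    ν.map (fun ω => (rbar 0 1 ω, tmat (idRep (2 + d)) ω)) = (overlapLaw ν) ⊗ₘ κ →
    ∀ (A : Set (Mat n)) (B : Set (Mat (2 + d))), MeasurableSet A → MeasurableSet B →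
      ((2 : ℝ) / n) ^ d *
          ∫ ω in {ω | tmat (idRep n) ω ∈ A}, (κ (rbar 0 1 ω)).real B ∂ν ≤
        ν.real {ω | tmat (idRep n) ω ∈ A ∧
          tmat (fun i : Fin (2 + d) => if i.val < 2 then i.val else n + (i.val - 2)) ω ∈ B}
  attach : ∀ (n p : ℕ), p < n → ∀ (A : Set (RepData n)) (I : Set ℝ), MeasurableSet A →
    MeasurableSet I →
    (overlapLaw ν).real I * ν.real {ω | repData n ω ∈ A} ≤
      (n : ℝ) * ν.real {ω | repData n ω ∈ A ∧ rbar p n ω ∈ I ∧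
        ∀ l < n, rbar l n ω ≤ rbar p n ω}

/-- Module 7: consequences of the GG identities. -/
def TreeStmt : Prop := ∀ ν : Measure Arr, IsGGArray ν → ∃ ρ, IsTreeArray ν ρ

/-- The consequences of the gadget identities (module 8). -/
structure IsCoreArray (ν : Measure Arr) (ρ : ℝ) : Prop extends IsTreeArray ν ρ where
  core_cont : ∀ (d : ℕ) (φ : Mat (2 + d) → ℝ) (U : Finset (Fin (2 + d))), Continuous φ →
    (∀ T, (∃ i j, i ≠ j ∧ ρ ≤ T i j) → φ T = 0) →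
    ∃ c : ℝ → ℝ, Continuous c ∧ ∀ g : ℝ → ℝ, Measurable g → (∀ q, |g q| ≤ 1) →
      ∫ ω, g (rbar 0 1 ω) * (φ (tmat (idRep (2 + d)) ω) * rset (((List.finRange (2 + d)).filter fun i => i ∈ U).map (idRep (2 + d))) ω) ∂ν =
        ∫ ω, g (rbar 0 1 ω) * c (rbar 0 1 ω) ∂ν
  var_id : ∀ d : ℕ, ∃ C : ℝ, ∀ (I : Set (Mat (2 + d))) (π : Equiv.Perm (Fin (2 + d))),
    MeasurableSet I → (∀ T ∈ I, ∀ i j, i ≠ j → T i j < ρ) →
    (∀ i, (π i).val < 2 ↔ i.val < 2) → (∀ i, i.val < 2 → π i ≠ i) →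
    (∀ T, T ∈ I ↔ (fun a b => T (π a) (π b)) ∈ I) →
    ∀ κ : Kernel ℝ (Mat (2 + d)), IsMarkovKernel κ →
      ν.map (fun ω => (rbar 0 1 ω, tmat (idRep (2 + d)) ω)) = (overlapLaw ν) ⊗ₘ κ →
    ∀ c : ℝ → ℝ, Measurable c → (∀ q, |c q| ≤ 1) →
      (∀ g : ℝ → ℝ, Measurable g → (∀ q, |g q| ≤ 1) →
        ∫ ω, g (rbar 0 1 ω) * (I.indicator 1 (tmat (idRep (2 + d)) ω) *
            rset (List.ofFn (idRep (2 + d))) ω) ∂ν =
          ∫ ω, g (rbar 0 1 ω) * c (rbar 0 1 ω) ∂ν) →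
    ∀ (W : Mat (2 + d) → Mat (2 + d) → ℝ) (ε : ℝ), Measurable (Function.uncurry W) →
      (∀ S T, |W S T| ≤ 1) →
      (∀ u u' : Fin (2 + d) → ℕ, Function.Injective u → Function.Injective u' →
        (∀ i, u i < 2 + 2 * d ∧ u' i < 2 + 2 * d) →
        (∀ i, i.val < 2 → u i = i.val ∧ u' i = i.val) →
        ∀ E : Set (Mat (2 + 2 * d)), MeasurableSet E →
          |∫ ω in {ω | tmat (idRep (2 + 2 * d)) ω ∈ E ∧ tmat u ω ∈ I ∧ tmat u' ω ∈ I},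
              (rset (List.ofFn u) ω * rset (List.ofFn u') ω - W (tmat u ω) (tmat u' ω)) ∂ν| ≤
            ε * ν.real {ω | tmat (idRep (2 + 2 * d)) ω ∈ E}) →
      ∀ g : ℝ → ℝ, Measurable g → (∀ q, |g q| ≤ 1) →
        |∫ ω, g (rbar 0 1 ω) * c (rbar 0 1 ω) ^ 2 ∂ν -
          ∫ ω, g (rbar 0 1 ω) *
            (∫ S in I, ∫ T in I, W S T ∂κ (rbar 0 1 ω) ∂κ (rbar 0 1 ω)) ∂ν| ≤ C * ε

/-- Module 8: gadget algebra. -/
def CoreStmt : Prop :=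
  ∀ (ν : Measure Arr) (ρ : ℝ), IsGadgetArray ν → IsTreeArray ν ρ → IsCoreArray ν ρ

/-- A finite monotone partition of `[-ρ, ρ]` of mesh at most `δ`, by the index of the cell. -/
def IsMesh (ρ δ : ℝ) (ι : ℝ → ℤ) : Prop :=
  Monotone ι ∧ ∀ x ∈ Set.Icc (-ρ) ρ, ∀ y ∈ Set.Icc (-ρ) ρ, ι x = ι y → |x - y| ≤ δ

/-- Module 9: every multi-overlap is a function of the tree, up to an error uniform in shapes. -/
def StructureStmt : Prop :=
  ∀ (ν : Measure Arr) (ρ : ℝ), IsCoreArray ν ρ → ∀ (D : ℕ), ∀ ε > 0, ∃ δ > 0,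
    ∀ ι : ℝ → ℤ, IsMesh ρ δ ι → ∀ τ : Fin D → Fin D → ℤ, ∃ κ : ℝ, |κ| ≤ 1 ∧
      ∀ E : Set (Mat D), MeasurableSet E →
        ∫ ω in {ω | tmat (idRep D) ω ∈ E ∧ ∀ a b : Fin D, a ≠ b → ι (rbar a b ω) = τ a b},
            |rset (List.ofFn (idRep D)) ω - κ| ∂ν ≤
          ε * ν.real {ω | tmat (idRep D) ω ∈ E ∧ ∀ a b : Fin D, a ≠ b → ι (rbar a b ω) = τ a b}

/-- Module 6 from modules 7, 8 and 9. -/
def AssemblyMPStmt : Prop := TreeStmt → CoreStmt → StructureStmt → MPApproxStmt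

end Vale.Agent.P168
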