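import Vale.Agent.P168.Defs

/-! Random states, the cavity functional, finite cascades and moments of the trial states. -/

open MeasureTheory ProbabilityTheory Filter
open scoped BigOperators NNReal ENNReal

noncomputable section

namespace Vale.Agent.P168

/-- A random probability vector on a finite set together with magnetisations of countably many
sites. -/
structure RandomState where
  Ω : Type
  α : Type
  mΩ : MeasurableSpace Ω
  fα : Fintype α
  law : @Measure Ω mΩ
  w : Ω → α → ℝ
  mag : Ω → α → ℕ → ℝ

attribute [instance] RandomState.mΩ RandomState.fα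

/-- The requirements on a random state. -/
structure RandomState.IsGood (S : RandomState) : Prop where
  prob : IsProbabilityMeasure S.law
  meas_w : ∀ a, Measurable fun ω => S.w ω a
  meas_mag : ∀ a i, Measurable fun ω => S.mag ω a i
  nonneg : ∀ ω a, 0 ≤ S.w ω a
  sum_one : ∀ ω, ∑ a, S.w ω a = 1
  bounded : ∀ ω a i, |S.mag ω a i| ≤ 1

/-- The moment attached to replica sets `A i` at the sites `i < M`. -/
def RandomState.moment (S : RandomState) {M n : ℕ} (A : Fin M → Finset (Fin n)) : ℝ :=
  ∫ ω, ∏ l : Fin n, ∑ a, S.w ω a * ∏ i : Fin M, (if l ∈ A i then S.mag ω a i else 1) ∂S.law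

/-- The site used by message `(k, j)`. -/
def msgSite {n K : ℕ} (i : Fin n × Fin K) : ℕ := (finProdFinEquiv i).val

/-- `E log ⟨U⟩` in a random state. -/
def RandomState.cavU (S : RandomState) {K : ℕ} (lam : ℝ) (P : Measure (Factor K))
    (Q : Measure ℝ) : ℝ :=
  ∫ n, ∫ c : Fin n → Factor K × Fin K, ∫ h, ∫ ω,
      Real.log (∑ a, S.w ω a * siteTerm c h fun i => S.mag ω a (msgSite i))
    ∂S.law ∂Q ∂(Measure.pi fun _ => P.prod (unifFin (Fin K)))
    ∂poissonMeasure ((K : ℝ) * lam).toNNReal

/-- `E log ⟨V⟩` in a random state. -/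
def RandomState.cavV (S : RandomState) {K : ℕ} (lam : ℝ) (P : Measure (Factor K)) : ℝ :=
  ∫ n, ∫ c : Fin n → Factor K, ∫ ω,
      Real.log (∑ a, S.w ω a * edgeTerm c fun i => S.mag ω a (msgSite i))
    ∂S.law ∂(Measure.pi fun _ => P)
    ∂poissonMeasure (((K : ℝ) - 1) * lam).toNNReal

/-- The cavity functional. -/
def RandomState.cav (S : RandomState) {K : ℕ} (lam : ℝ) (P : Measure (Factor K))
    (Q : Measure ℝ) : ℝ :=
  S.cavU lam P Q - S.cavV lam P

/-- Nested means with marks in an arbitrary probability space. -/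
def genNested {β : Type} [MeasurableSpace β] (ν : Measure β) :
    {r : ℕ} → (Fin r → ℝ) → ((Fin r → β) → ℝ) → ℝ
  | 0, _, Y => Y Fin.elim0
  | _ + 1, m, Y =>
    (∫ b, (genNested ν (Fin.tail m) fun ω => Y (Fin.cons b ω)) ^ m 0 ∂ν) ^ (1 / m 0)

/-- Sample space of a finite cascade with branching numbers `n`. -/
def CascTree (β : Type) : (r : ℕ) → (Fin r → ℕ) → Type
  | 0, _ => Unit
  | r + 1, n => Fin (n 0) → ℝ × β × CascTree β r (Fin.tail n)

/-- The measurable structure of `CascTree`. -/
def cascSpace (β : Type) [MeasurableSpace β] :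
    (r : ℕ) → (n : Fin r → ℕ) → MeasurableSpace (CascTree β r n)
  | 0, _ => inferInstanceAs (MeasurableSpace Unit)
  | r + 1, n =>
    letI := cascSpace β r (Fin.tail n)
    inferInstanceAs (MeasurableSpace (Fin (n 0) → ℝ × β × CascTree β r (Fin.tail n)))

instance (β : Type) [MeasurableSpace β] (r : ℕ) (n : Fin r → ℕ) :
    MeasurableSpace (CascTree β r n) := cascSpace β r n

/-- Law of the cascade: at every child a uniform variable, a mark and a subtree. -/
def cascLaw {β : Type} [MeasurableSpace β] (ν : Measure β) :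
    (r : ℕ) → (n : Fin r → ℕ) → Measure (CascTree β r n)
  | 0, _ => Measure.dirac ()
  | r + 1, n => Measure.pi fun _ : Fin (n 0) => unif.prod (ν.prod (cascLaw ν r (Fin.tail n)))

/-- `∑ over leaves of the product of the weights times Y(marks)`; the weight of a child with
uniform variable `u` is `(n u) ^ (-1/m)`. -/
def cascSum {β : Type} : (r : ℕ) → (Fin r → ℝ) → (n : Fin r → ℕ) → ((Fin r → β) → ℝ) →
    CascTree β r n → ℝ
  | 0, _, _, Y, _ => Y Fin.elim0
  | r + 1, m, n, Y, t => ∑ k : Fin (n 0), ((n 0 : ℝ) * (t k).1) ^ (-(1 / m 0)) *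
      cascSum r (Fin.tail m) (Fin.tail n) (fun ω => Y (Fin.cons (t k).2.1 ω)) (t k).2.2

/-- The normalised cascade average. -/
def cascMean {β : Type} {r : ℕ} (m : Fin r → ℝ) (n : Fin r → ℕ) (Y : (Fin r → β) → ℝ)
    (t : CascTree β r n) : ℝ :=
  cascSum r m n Y t / cascSum r m n (fun _ => 1) t

/-- The filter of iterated limits, innermost branching number first. -/
def cascFilter : (r : ℕ) → Filter (Fin r → ℕ)
  | 0 => pure Fin.elim0
  | r + 1 => Filter.bind atTop fun n₀ => (cascFilter r).map (Fin.cons n₀)

/-- Exponents padded by `m₀ = 0` and `m_{r+1} = 1`. -/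
def padded {r : ℕ} (m : Fin r → ℝ) (p : ℕ) : ℝ :=
  if p = 0 then 0 else if h : p - 1 < r then m ⟨p - 1, h⟩ else 1

/-- An overlap shape of `n` replicas: the level of the deepest common node. -/
abbrev Shape (r n : ℕ) := Fin n → Fin n → Fin (r + 1)

/-- The class of `l` at level `p`; singletons beyond level `r`. -/
def shapeClass {r n : ℕ} (v : Shape r n) (p : ℕ) (l : Fin n) : Finset (Fin n) :=
  if p ≤ r then Finset.univ.filter fun l' => p ≤ (v l l').val else {l}

/-- The restriction of a shape to the first `n` replicas. -/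
def shapeInit {r n : ℕ} (v : Shape r (n + 1)) : Shape r n := fun a b => v a.castSucc b.castSucc

/-- Probability of extending `shapeInit v` to `v`: a new child at a node of level `p₀` with `j`
children has probability `(j m_{p₀+1} - m_{p₀}) / n`. -/
def extProb {r n : ℕ} (m : Fin r → ℝ) (v : Shape r (n + 1)) : ℝ := by
  classical
  exact if v (Fin.last n) (Fin.last n) = Fin.last r then
    if n = 0 then 1 else
      if h : ∃ ls : Fin n, ∀ l : Fin n,
          v (Fin.last n) l.castSucc =
            min (v (Fin.last n) ls.castSucc) (shapeInit v ls l) ∧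
          v l.castSucc (Fin.last n) = v (Fin.last n) l.castSucc then
        let ls := h.choose
        let p := (v (Fin.last n) ls.castSucc).val
        let j := ((shapeClass (shapeInit v) p ls).image (shapeClass (shapeInit v) (p + 1))).card
        ((j : ℝ) * padded m (p + 1) - padded m p) / n
      else 0
  else 0

/-- The law of the tree of `n` replicas in the cascade with exponents `m`. -/
def shapeProb {r : ℕ} (m : Fin r → ℝ) : (n : ℕ) → Shape r n → ℝ
  | 0, _ => 1
  | n + 1, v => shapeProb m n (shapeInit v) * extProb m v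

/-- The representative of the class of `l` at level `p`. -/
def shapeRep {r n : ℕ} (v : Shape r n) (p : ℕ) (l : Fin n) : Fin n :=
  if h : (shapeClass v p l).Nonempty then (shapeClass v p l).min' h else l

/-- Marks of replica `l` read from a table indexed by level and representative. -/
def shapeMarks {β : Type} {r n : ℕ} (v : Shape r n) (ω : Fin r → Fin n → β) (l : Fin n) :
    Fin r → β :=
  fun p => ω p (shapeRep v (p.val + 1) l)

/-- Replica moment of a cascade. -/
def treeMoment {β : Type} [MeasurableSpace β] (ν : Measure β) {r n : ℕ} (m : Fin r → ℝ)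
    (g : Fin n → (Fin r → β) → ℝ) : ℝ :=
  ∑ v : Shape r n, shapeProb m n v *
    ∫ ω : Fin r → Fin n → β, ∏ l, g l (shapeMarks v ω l)
      ∂(Measure.pi fun _ => Measure.pi fun _ => ν)

/-- One-site correlation of the trial state given a shape. -/
def mpSiteCorr {r n : ℕ} (x : (Fin (r + 1) → ℝ) → ℝ) (v : Shape r n) (B : Finset (Fin n)) : ℝ :=
  ∫ ω₀, ∫ ω : Fin r → Fin n → ℝ, ∏ l ∈ B, x (Fin.cons ω₀ (shapeMarks v ω l))
    ∂(Measure.pi fun _ => Measure.pi fun _ => unif) ∂unif

/-- Moments of the hierarchical trial state. -/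
def mpMoment {r M n : ℕ} (m : Fin r → ℝ) (x : (Fin (r + 1) → ℝ) → ℝ)
    (A : Fin M → Finset (Fin n)) : ℝ :=
  ∑ v : Shape r n, shapeProb m n v * ∏ i, mpSiteCorr x v (A i)

end Vale.Agent.P168
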