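import Vale.Agent.P168.Statements

/-! The formula follows from the module statements. -/

open MeasureTheory ProbabilityTheory Filter
open scoped BigOperators NNReal ENNReal

noncomputable section

namespace Vale.Agent.P168

theorem MomentClose.mono {M₀ n₀ : ℕ} {δ δ' : ℝ}
    {f g : ∀ {M n : ℕ}, (Fin M → Finset (Fin n)) → ℝ}
    (h : MomentClose M₀ n₀ δ @f @g) (hδ : δ ≤ δ') : MomentClose M₀ n₀ δ' @f @g :=
  fun M n hM hn A => (h M n hM hn A).trans hδ

theorem lower_of (hC : CavContinuityStmt) (hS : MPStateStmt) (hL : LimitStmt)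
    (hA : MPApproxStmt) : LowerStmt := by
  intro K lam P Q c H hB ε hε
  obtain ⟨ν, hν, hstates⟩ := hL K lam P Q c H hB
  obtain ⟨M₀, n₀, δ, hδ, hcont⟩ := hC K lam P Q c H hB (ε / 4) (by positivity)
  set δ' := min (δ / 3) (ε / 4) with hδ'def
  have hδ' : 0 < δ' := lt_min (by positivity) (by positivity)
  obtain ⟨S, hSg, hSmom, hScav⟩ := hstates M₀ n₀ δ' hδ'
  obtain ⟨r, m, x, hx, happ⟩ := hA ν hν M₀ n₀ δ' hδ'
  obtain ⟨S', hS'g, hS'cav, hS'mom⟩ := hS K lam P Q c H hB r m x hx M₀ n₀ δ' hδ'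
  have hd1 : δ' ≤ δ / 3 := min_le_left _ _
  have hd2 : δ' ≤ ε / 4 := min_le_right _ _
  have hclose : MomentClose M₀ n₀ δ S'.moment S.moment := by
    intro M n hM hn A
    have e1 := abs_le.1 (hS'mom M n hM hn A)
    have e2 := abs_le.1 (happ M n hM hn A)
    have e3 := abs_le.1 (hSmom M n hM hn A)
    exact abs_le.2 ⟨by linarith [e1.1, e2.1, e3.2], by linarith [e1.2, e2.2, e3.1]⟩
  have e4 := abs_le.1 (hcont S' S hS'g hSg hclose)
  have e5 := abs_le.1 hS'cav
  set v := trialU lam P Q m x - trialV lam P m x with hv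
  filter_upwards [hScav] with N hN
  exact ⟨v, ⟨r, m, x, hx, rfl⟩, by linarith [e4.2, e5.1]⟩

theorem formula_of (hU : UpperStmt) (hL : LowerStmt) (K : ℕ) (lam : ℝ)
    (P : Measure (Factor K)) (Q : Measure ℝ) (c H : ℝ) (hB : Bounded K lam P Q c H) :
    MPFormula lam P Q := by
  set T := trialValues lam P Q with hT
  have hne : T.Nonempty :=
    ⟨_, 0, Fin.elim0, fun _ => 0,
      ⟨fun i => i.elim0, fun i => i.elim0, fun i => i.elim0, measurable_const,
        fun _ => by norm_num⟩, rfl⟩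
  have hbdd : BddBelow T := ⟨pressure lam P Q 1, fun v hv => hU K lam P Q c H hB v hv 0⟩
  refine ⟨sInf T, ?_, isGLB_csInf hne hbdd⟩
  rw [Metric.tendsto_atTop']
  intro ε hε
  obtain ⟨N₀, hN₀⟩ := eventually_atTop.1 (hL K lam P Q c H hB (ε / 2) (by positivity))
  refine ⟨N₀, fun N hN => ?_⟩
  obtain ⟨v, hv, hle⟩ := hN₀ N hN.le
  have h1 : sInf T ≤ v := csInf_le hbdd hv
  have h2 : pressure lam P Q (N + 1) ≤ sInf T := le_csInf hne fun w hw => hU K lam P Q c H hB w hw N
  rw [Real.dist_eq, abs_lt]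
  exact ⟨by linarith, by linarith⟩

theorem main_of (hT : TruncationStmt) (hU : UpperStmt) (hC : CavContinuityStmt)
    (hS : MPStateStmt) (hL : LimitStmt) (hTree : TreeStmt) (hCore : CoreStmt)
    (hStr : StructureStmt) (hA : AssemblyMPStmt) : MainStmt :=
  hT (formula_of hU (lower_of hC hS hL (hA hTree hCore hStr)))

end Vale.Agent.P168
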