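import Vale.Agent.P168.Truncation.Model
import Vale.Agent.P168.Truncation.Trial

/-! Module 1: the formula for bounded models implies it for all models. -/

open MeasureTheory ProbabilityTheory Filter
open scoped BigOperators NNReal ENNReal Topology

noncomputable section

namespace Vale.Agent.P168.Trunc

/-- Limits and greatest lower bounds are stable under uniform approximation. -/
theorem exists_limit_of_approx {ι : Type} {F : ℕ → ℝ} {v : ι → ℝ}
    (h : ∀ ε > 0, ∃ (F' : ℕ → ℝ) (v' : ι → ℝ) (o L' : ℝ), Tendsto F' atTop (𝓝 L') ∧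
      IsGLB (Set.range v') L' ∧ (∀ N, |F N - (F' N + o)| ≤ ε) ∧ ∀ i, |v i - (v' i + o)| ≤ ε) :
    ∃ L, Tendsto F atTop (𝓝 L) ∧ IsGLB (Set.range v) L := by
  have hF : CauchySeq F := by
    rw [Metric.cauchySeq_iff]
    intro ε hε
    obtain ⟨F', v', o, L', hlim, -, hFc, -⟩ := h (ε / 5) (by positivity)
    obtain ⟨N₀, hN₀⟩ := Metric.cauchySeq_iff.1 hlim.cauchySeq (ε / 5) (by positivity)
    refine ⟨N₀, fun a ha b hb => ?_⟩
    have e := hN₀ a ha b hb
    rw [Real.dist_eq, abs_lt] at e ⊢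
    have e1 := abs_le.1 (hFc a)
    have e2 := abs_le.1 (hFc b)
    exact ⟨by linarith [e1.1, e2.2, e.1], by linarith [e1.2, e2.1, e.2]⟩
  obtain ⟨L, hL⟩ := cauchySeq_tendsto_of_complete hF
  refine ⟨L, hL, ?_, ?_⟩
  · rintro _ ⟨i, rfl⟩
    refine le_of_forall_pos_le_add fun ε hε => ?_
    obtain ⟨F', v', o, L', hlim, hglb, hFc, hvc⟩ := h (ε / 2) (by positivity)
    have h1 : L ≤ L' + o + ε / 2 := le_of_tendsto_of_tendsto' hL
      ((hlim.add_const o).add_const (ε / 2)) fun N => by linarith [(abs_le.1 (hFc N)).2]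
    linarith [hglb.1 (Set.mem_range_self i), (abs_le.1 (hvc i)).1]
  · intro b hb
    refine le_of_forall_pos_le_add fun ε hε => ?_
    obtain ⟨F', v', o, L', hlim, hglb, hFc, hvc⟩ := h (ε / 2) (by positivity)
    have h1 : L' + o - ε / 2 ≤ L := le_of_tendsto_of_tendsto'
      ((hlim.add_const o).sub_const (ε / 2)) hL fun N => by linarith [(abs_le.1 (hFc N)).1]
    have h2 : b - o - ε / 2 ≤ L' := hglb.2 <| by
      rintro _ ⟨i, rfl⟩
      linarith [hb (Set.mem_range_self i), (abs_le.1 (hvc i)).2]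
    linarith

/-- Trial parameters of any depth. -/
abbrev TrialParam : Type :=
  {p : Σ r : ℕ, (Fin r → ℝ) × ((Fin (r + 1) → ℝ) → ℝ) // IsTrial p.2.1 p.2.2}

theorem trialValues_eq_range {K : ℕ} (lam : ℝ) (P : Measure (Factor K)) (Q : Measure ℝ) :
    trialValues lam P Q = Set.range fun p : TrialParam =>
      trialU lam P Q p.1.2.1 p.1.2.2 - trialV lam P p.1.2.1 p.1.2.2 := by
  ext v
  constructor
  · rintro ⟨r, m, x, hx, rfl⟩
    exact ⟨⟨⟨r, m, x⟩, hx⟩, rfl⟩
  · rintro ⟨⟨⟨r, m, x⟩, hx⟩, rfl⟩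
    exact ⟨r, m, x, hx, rfl⟩

/-- Stripping and clipping relate a model to a bounded one. -/
theorem related_trunc {K : ℕ} {P : Measure (Factor K)} {Q : Measure ℝ} (hM : IsModel P Q)
    {c H : ℝ} (h0 : 0 ≤ c) (h1 : c < 1) (hH : 0 ≤ H) :
    Related P Q (strip c) (shift c) (stripErr c) (clip H) where
  probP := hM.prob_factor
  probQ := hM.prob_field
  measS := measurable_strip c
  measτ := measurable_clip H
  intTheta := integrable_absTheta hM
  intA := integrable_shift hM h0 h1
  intψ := integrable_stripErr hM h0 h1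
  intField := hM.integrable_field
  intτ := by
    have := hM.prob_field
    exact (integrable_const H).mono' (measurable_clip H).aestronglyMeasurable
      (Eventually.of_forall (abs_clip_le hH))
  close := by
    filter_upwards [ae_good hM] with θ hθ
    exact ⟨hθ.posWeight, (goodFactor_strip h0 h1.le hθ).posWeight, fun σ =>
      Finset.single_le_sum
        (f := fun σ => |theta θ σ - theta (strip c θ) σ - shift c θ|)
        (fun _ _ => abs_nonneg _) (Finset.mem_univ σ)⟩

/-- Module 1. -/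
theorem truncationStmt : TruncationStmt := by
  intro hbdd K lam P Q hKe hK hlam hM
  have : Nonempty (Fin K) := ⟨⟨0, by omega⟩⟩
  have hK1 : (1 : ℝ) ≤ K := by exact_mod_cast (by omega : 1 ≤ K)
  set cs : ℕ → ℝ := fun j => 1 - 1 / ((j : ℝ) + 1) with hcsdef
  have hcs0 : ∀ j, 0 ≤ cs j := fun j => by
    have : 1 / ((j : ℝ) + 1) ≤ 1 := by
      rw [div_le_one (by positivity)]
      simp
    simp only [hcsdef]
    linarith
  have hcs1 : ∀ j, cs j < 1 := fun j => by
    have : 0 < 1 / ((j : ℝ) + 1) := by positivity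
    simp only [hcsdef]
    linarith
  have hcs : Tendsto cs atTop (𝓝 1) := by
    simpa [hcsdef] using (tendsto_one_div_add_atTop_nhds_zero_nat (𝕜 := ℝ)).const_sub 1
  have herr : Tendsto (fun j : ℕ => (2 * K * lam) * (∫ θ, stripErr (cs j) θ ∂P) +
      ∫ h, |h - clip (j : ℝ) h| ∂Q) atTop (𝓝 0) := by
    simpa using ((tendsto_integral_stripErr hM hcs0 (fun j => (hcs1 j).le) hcs).const_mul
      (2 * (K : ℝ) * lam)).add (tendsto_integral_clip hM)
  rw [MPFormula, trialValues_eq_range]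
  refine exists_limit_of_approx fun ε hε => ?_
  obtain ⟨j, hj⟩ := (herr.eventually_le_const hε).exists
  have R := related_trunc hM (hcs0 j) (hcs1 j) (Nat.cast_nonneg j (α := ℝ))
  have hB : Bounded K lam (P.map (strip (cs j))) (Q.map (clip (j : ℝ))) (cs j) j :=
    { even := hKe
      two_le := hK
      lam_pos := hlam
      model := isBoundedModel_trunc hM (hcs0 j) (hcs1 j) (Nat.cast_nonneg j) }
  obtain ⟨L', hlim, hglb⟩ := hbdd K lam _ _ _ _ hB
  rw [trialValues_eq_range] at hglb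
  have hψ : 0 ≤ ∫ θ, stripErr (cs j) θ ∂P :=
    integral_nonneg fun θ => Finset.sum_nonneg fun _ _ => abs_nonneg _
  have hlψ : 0 ≤ lam * ∫ θ, stripErr (cs j) θ ∂P := mul_nonneg hlam.le hψ
  have hKψ : 0 ≤ ((K : ℝ) - 1) * (lam * ∫ θ, stripErr (cs j) θ ∂P) :=
    mul_nonneg (by linarith) hlψ
  refine ⟨_, _, lam * ∫ θ, shift (cs j) θ ∂P, L', hlim, hglb, fun N => ?_, fun p => ?_⟩
  · exact (pressure_compare R hlam.le N).trans (by linarith)
  · obtain ⟨⟨r, m, x⟩, hx⟩ := p
    have hU := abs_le.1 (trialU_compare R hlam.le hx)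
    have hV := abs_le.1 (trialV_compare R hlam.le hx)
    refine abs_le.2 ⟨?_, ?_⟩
    · dsimp only
      linarith [hU.1, hV.2]
    · dsimp only
      linarith [hU.2, hV.1]

end Vale.Agent.P168.Trunc
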