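import Vale.Agent.P168.Upper.Model

/-! The upper bound `F_N ≤ 𝒯(m, x)`, for every `N`, from the cascade limit. -/

open MeasureTheory ProbabilityTheory
open scoped BigOperators

namespace Vale.Agent.P168

open Upper

/-- Module 3. -/
theorem upper_stmt : CascadeLogStmt → UpperStmt := by
  intro hL K lam P Q c H hB v hv N
  obtain ⟨r, m, x, ht, rfl⟩ := hv
  have hM := hB.model
  obtain ⟨νb, νf, hνb, hνf, hmap⟩ := hM.indep
  haveI : IsProbabilityMeasure P := hM.prob_factor
  haveI : IsProbabilityMeasure Q := hM.prob_field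
  haveI : NeZero K := ⟨by have := hB.two_le; omega⟩
  have hc : 0 ≤ c := by
    obtain ⟨θ, hθ⟩ := hM.b_le.exists
    exact (abs_nonneg _).trans hθ
  have hH : 0 ≤ H := by
    obtain ⟨h, hh⟩ := hM.h_le.exists
    exact (abs_nonneg _).trans hh
  have hmk : MeasurePreserving (mkF c) (facLaw K νb νf) P := mp_mkF hM hmap
  have hpos : ∀ i : ℕ, 1 ≤ i → 0 ≤ ∫ b, (-clip c b) ^ i ∂νb := by
    intro i hi
    have hm1 : Measurable fun b : ℝ => (-clip c b) ^ i :=
      (measurable_clip c).neg.pow_const i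
    have hm2 : Measurable fun θ : Factor K => (-θ.2.1) ^ i :=
      (measurable_fst.comp measurable_snd).neg.pow_const i
    have e1 : ∫ w : Fac K, (-clip c w.1) ^ i ∂facLaw K νb νf = ∫ b, (-clip c b) ^ i ∂νb :=
      integral_mp measurePreserving_fst hm1
    have e2 : ∫ w : Fac K, (-clip c w.1) ^ i ∂facLaw K νb νf = ∫ θ, (-θ.2.1) ^ i ∂P :=
      integral_mp hmk hm2
    rw [← e1, e2]
    exact hM.positivity i hi
  have h := main_ineq (νb := νb) (νf := νf) (Q := Q) (K := K) (N := N + 1) hL hB.even ht.pos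
    ht.lt_one ht.strictMono hc hM.c_lt hH ht.measurable ht.bounded hpos hB.lam_pos.le
  rw [pressure_eq hmk hc hM.c_lt hM.h_le,
    trialU_eq hmk ht.pos hc hM.c_lt hH hM.h_le ht.measurable ht.bounded,
    trialV_eq hmk ht.pos hc hM.c_lt ht.measurable ht.bounded hB.lam_pos.le]
  have hN : (0 : ℝ) < ((N + 1 : ℕ) : ℝ) := by exact_mod_cast N.succ_pos
  rw [one_div_mul_eq_div, div_le_iff₀ hN]
  linarith

end Vale.Agent.P168
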